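import Vale.Agent.P227.M.Stmts
import Vale.Agent.P227.Defs

/-! # P227/M: the chain of the blocks. -/

open MeasureTheory

namespace Vale.Agent.P227.M

/-- the logarithmic Brunn-Minkowski inequality for all origin-symmetric convex bodies -/
def StmtQ1 : Prop := ∀ (n : ℕ) (K L : Set (EuclideanSpace ℝ (Fin n))) (t : ℝ), 0 < n →
  Vale.Agent.P227.SymConvexBody K → Vale.Agent.P227.SymConvexBody L → 0 ≤ t → t ≤ 1 →
    (volume K).toReal ^ (1 - t) * (volume L).toReal ^ t ≤
      (volume (Vale.Agent.P227.logComb t K L)).toReal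

/-- the chain SC → MM, ID, LIN → LOC → END -/
theorem q1_of_blocks (hSC : StmtSC) (hMM : StmtSC → StmtMM) (hStein : StmtStein) (hIBP : StmtIBP)
    (hDiv : StmtDiv) (hKey : StmtKey) (hLin : StmtLin)
    (hLoc : StmtStein → StmtIBP → StmtDiv → StmtKey → StmtLin → StmtMM → StmtLocal)
    (hEnd : StmtLocal → StmtQ1) : StmtQ1 :=
  hEnd (hLoc hStein hIBP hDiv hKey hLin (hMM hSC))

end Vale.Agent.P227.M
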