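import Vale.Agent.P227.M.Stmts
import Vale.Agent.P227.M.Bas
import Vale.Agent.P227.M.Mom.Out
import Vale.Agent.P227.M.MM.Ifc

/-! # P227/M: adapter between the two forms of the output of LK -/

open MeasureTheory Filter
open scoped Topology

namespace Vale.Agent.P227.M.Top

variable {n : ℕ}

theorem pd_add_const (f : E n → ℝ) (a : ℝ) (i : Fin n) : pd i (fun x => f x + a) = pd i f := by
  funext x
  simp only [pd, fderiv_add_const]

theorem hess_add_const (f : E n → ℝ) (a : ℝ) : hess (fun x => f x + a) = hess f := by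
  funext x i j
  simp only [hess, pd_add_const]

theorem reg_add_const {V : E n → ℝ} {c C : ℝ} (h : Reg V c C) (a : ℝ) : Reg (fun x => V x + a) c C := by
  refine ⟨h.c_pos, h.smooth.add contDiff_const, ?_, ?_, ?_⟩
  · rw [hess_add_const]
    exact h.lower
  · rw [hess_add_const]
    exact h.upper
  · intro k hk
    obtain ⟨B, hB⟩ := h.bdd k hk
    refine ⟨B, fun x => ?_⟩
    have h1 : iteratedFDeriv ℝ k (fun x => V x + a) x = iteratedFDeriv ℝ k V x := by
      have h2 : (fun x => V x + a) = V + fun _ => a := rfl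
      have h3 : ContDiff ℝ k V := contDiff_infty.1 h.smooth k
      rw [h2, iteratedFDeriv_add_apply h3.contDiffAt contDiff_const.contDiffAt,
        iteratedFDeriv_const_of_ne (by omega) a]
      simp
    rw [h1]
    exact hB x

theorem nice_add_const {V : E n → ℝ} {c C : ℝ} (h : Nice V c C) (a : ℝ) : Nice (fun x => V x + a) c C :=
  ⟨reg_add_const h.toReg a, fun x => by rw [h.even]⟩

theorem grad_add_const (f : E n → ℝ) (a : ℝ) : gradient (fun x => f x + a) = gradient f := by
  funext x
  simp only [gradient, fderiv_add_const]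

/-- 874's form of LK gives 618's form -/
theorem lk_of_lk (H : StmtLK) : MM.StmtLK := by
  intro n hn V c C hV
  set Z : ℝ := ∫ x, Real.exp (-V x) with hZ
  have hZ0 : 0 < Z := hV.toReg.Z_pos
  have hVn : Nice (fun x => V x + Real.log Z) c C := nice_add_const hV _
  have hexp : ∀ x : E n, Real.exp (-(V x + Real.log Z)) = Z⁻¹ * Real.exp (-V x) := fun x => by
    rw [neg_add, Real.exp_add, Real.exp_neg (Real.log Z), Real.exp_log hZ0]
    ring
  have h1 : (∫ x, Real.exp (-(V x + Real.log Z))) = 1 := by
    simp only [hexp]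
    rw [integral_const_mul, ← hZ, inv_mul_cancel₀ hZ0.ne']
  obtain ⟨M, hM⟩ := H n _ c C hVn h1
  refine ⟨M, fun ε hε hε1 => ?_⟩
  obtain ⟨φ, hφs, hφe, hlo, hup, hlip, hint, hF⟩ := hM (min ε (ε / Z)) (lt_min hε (by positivity))
  have h2 : ContDiff ℝ 2 φ := by exact_mod_cast contDiff_infty.1 hφs 2
  have hexp2 : ∀ x : E n, Real.exp (-(φ x - Real.log Z)) = Z * Real.exp (-φ x) := fun x => by
    rw [neg_sub, sub_eq_add_neg, Real.exp_add, Real.exp_log hZ0]
  have hC0 : 0 < C := hV.c_pos.trans_le (MM.nice_le hn hV.toReg)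
  refine ⟨fun x => φ x - Real.log Z, gradient φ, hT φ, ?_, ?_, ?_⟩
  · refine ⟨fun y => ?_, fun y => hasFDerivAt_gradient h2 y, fun y v => ?_, fun y v => ?_, hlip, fun y => by rw [hφe]⟩
    · have h3 := hasGradientAt_of_contDiff (k := 2) (by norm_num) h2 y
      have h4 : HasFDerivAt (fun x => φ x - Real.log Z) ((InnerProductSpace.toDual ℝ (E n)) (gradient φ y)) y :=
        h3.hasFDerivAt.sub_const _
      exact hasGradientAt_iff_hasFDerivAt.2 h4
    · rw [← qf_hT h2]
      refine le_trans ?_ (hlo y v)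
      have h5 : (1 - ε) ≤ (1 - min ε (ε / Z)) := by
        have := min_le_left ε (ε / Z)
        linarith
      have h6 : 0 ≤ C⁻¹ := by positivity
      nlinarith [mul_le_mul_of_nonneg_right (mul_le_mul_of_nonneg_right h5 h6) (sq_nonneg ‖v‖)]
    · rw [← qf_hT h2]
      exact hup y v
  · simp only [hexp2]
    rw [integral_const_mul, hint, mul_one]
  · intro F hF1 hF2
    have h7 := hF F hF2 hF1
    have h8 : (∫ y, F (gradient φ y) * Real.exp (-(φ y - Real.log Z))) = Z * ∫ y, F (gradient φ y) * Real.exp (-φ y) := by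
      rw [← integral_const_mul]
      refine integral_congr_ae (Eventually.of_forall fun y => ?_)
      simp only [hexp2]
      ring
    have h9 : (∫ x, F x * Real.exp (-V x)) = Z * ∫ x, F x * Real.exp (-(V x + Real.log Z)) := by
      rw [← integral_const_mul]
      refine integral_congr_ae (Eventually.of_forall fun y => ?_)
      simp only [hexp]
      field_simp
    rw [h8, h9, ← mul_sub, abs_mul, abs_of_pos hZ0]
    calc Z * _ ≤ Z * (min ε (ε / Z)) := mul_le_mul_of_nonneg_left h7 hZ0.le
      _ ≤ Z * (ε / Z) := mul_le_mul_of_nonneg_left (min_le_right _ _) hZ0.le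
      _ = ε := by field_simp

end Vale.Agent.P227.M.Top
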