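import Vale.Agent.P227.M.MM.Fin618
import Vale.Agent.P227.M.MM.ToC21
import Vale.Agent.P227.M.MM.Desc290
import Vale.Agent.P227.M.LK.RegLL570
import Vale.Agent.P227.M.ID.Stein294
import Vale.Agent.P227.M.ID.Div
import Vale.Agent.P227.M.ID.XKey
import Vale.Agent.P227.M.SC2.MargN
import Vale.Agent.P227.M.LIN.AffStmt
import Vale.Agent.P227.M.LIN.HilbPf
import Vale.Agent.P227.M.LIN.Boch
import Vale.Agent.P227.M.LIN.TopG
import Vale.Agent.P227.M.LIN.ESA
import Vale.Agent.P227.M.Loc.Main
import Vale.Agent.P227.M.END.ToQ1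
import Vale.Agent.P227.M.Top.Chain

/-! # P227/M: integration test: all landed blocks imported together, the open ones as hypotheses. -/

namespace Vale.Agent.P227.M.Top878

open MM LIN

theorem stmtMM_rest (hSC : StmtSC) : StmtMM :=
  stmtMM_of_blocks hSC LK.H570.regLL D290.stmtDesc stmtToC21

theorem q1_rest (hHeat : StmtHeat) (hH1 : StmtH1) : StmtQ1 :=
  q1_of_blocks (HL.stmtSC_of_heat hHeat) stmtMM_rest B294.stmtStein B294.stmtIBP stmtDiv X.stmtKey
    (T592.stmtLin_of B294.stmtIBP stmtESA stmtBoch stmtConst stmtAff hH1 stmtHilb) stmtLocal_of END.stmtQ1_of_stmtLocal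

end Vale.Agent.P227.M.Top878
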