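import Vale.Agent.P227.M.Top.Pre874
import Vale.Agent.P227.M.SC.HeatOfStep
import Vale.Agent.P227.M.SC.Step
import Vale.Agent.P227.M.Key568.Main
import Vale.Agent.P227.M.LIN.EsaStmt929
import Vale.Agent.P227.M.LIN.H1Pt
import Vale.Agent.P227.M.LIN.H1Top

/-! # P227/M: Q1 -/

namespace Vale.Agent.P227.M.Top874

open Vale.Agent.P227.M

theorem stmtH1 : LIN.StmtH1 := LIN.H1T.stmtH1_of fun _ _ _ _ _ _ hM => by
  obtain ⟨T1, h, hR⟩ := LIN.pt_bound hM
  exact ⟨T1, h, fun R hR2 => hR R (by linarith)⟩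

/-- the logarithmic Brunn-Minkowski inequality -/
theorem q1 : StmtQ1 :=
  q1_of (SC.stmtHeat_of_step fun _ => SC.step) Key568.stmtKey568 Esa929.stmtESA stmtH1

end Vale.Agent.P227.M.Top874
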