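import Vale.Agent.P227.M.Top.Chain
import Vale.Agent.P227.M.END.ToQ1
import Vale.Agent.P227.M.ID.Stein294
import Vale.Agent.P227.M.ID.Div
import Vale.Agent.P227.M.MM.Top618
import Vale.Agent.P227.M.Loc.Main
import Vale.Agent.P227.M.LIN.TopG
import Vale.Agent.P227.M.LIN.Boch
import Vale.Agent.P227.M.LIN.AffStmt
import Vale.Agent.P227.M.LIN.Hilb119
import Vale.Agent.P227.Fin3.Defs

/-! # P227/M/Top/Four5: everything that is proved, composed; four inputs left. -/

open MeasureTheory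

namespace Vale.Agent.P227.M

theorem local_of_four (hSC : StmtSC) (hKey : StmtKey) (hE : LIN.StmtESA) (hH1 : LIN.StmtH1) :
    StmtLocal :=
  stmtLocal_of B294.stmtStein B294.stmtIBP stmtDiv hKey
    (LIN.T592.stmtLin_of B294.stmtIBP hE LIN.stmtBoch LIN.stmtConst LIN.stmtAff hH1 LIN.stmtHilb119)
    (MM.stmtMM_of_sc hSC)

theorem q1_of_four (hSC : StmtSC) (hKey : StmtKey) (hE : LIN.StmtESA) (hH1 : LIN.StmtH1) :
    StmtQ1 := END.stmtQ1_of_stmtLocal (local_of_four hSC hKey hE hH1)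

theorem logBM_of_q1 (h : StmtQ1) : Fin3.LogBM := fun n K L t hn hK hL ht0 ht1 =>
  h n K L t hn ⟨hK.convex, hK.isCompact, hK.nonempty_interior, hK.symm⟩
    ⟨hL.convex, hL.isCompact, hL.nonempty_interior, hL.symm⟩ ht0 ht1

theorem logBM_of_four (hSC : StmtSC) (hKey : StmtKey) (hE : LIN.StmtESA) (hH1 : LIN.StmtH1) :
    Fin3.LogBM := logBM_of_q1 (q1_of_four hSC hKey hE hH1)

end Vale.Agent.P227.M
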