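import Vale.Agent.P227.M.Top.One
import Vale.Agent.P227.M.LIN.H1Top
import Vale.Agent.P227.M.LIN.H1Pt

/-! # P227/M: the logarithmic Brunn-Minkowski inequality -/

namespace Vale.Agent.P227.M.Top

theorem stmtH1 : LIN.StmtH1 :=
  LIN.H1T.stmtH1_of fun _ _ _ _ _ _ hM => by
    obtain ⟨T1, h1, h2⟩ := LIN.pt_bound hM
    exact ⟨T1, h1, fun R hR => h2 R (by linarith)⟩

/-- the logarithmic Brunn-Minkowski inequality in all dimensions -/
theorem q1 : StmtQ1 := q1_of_h1 stmtH1

end Vale.Agent.P227.M.Top
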