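import Vale.Agent.P227.M.Top.Chain
import Vale.Agent.P227.M.MM.Top618
import Vale.Agent.P227.M.ID.Stein294
import Vale.Agent.P227.M.ID.Div294
import Vale.Agent.P227.M.LIN.Most
import Vale.Agent.P227.M.Loc.Main
import Vale.Agent.P227.M.END.ToQ1

/-! # P227/M: the chain with everything that is landed (20:55) -/

namespace Vale.Agent.P227.M.Top

/-- log-Brunn-Minkowski from the open leaves -/
theorem q1_of_four (hSC : StmtSC) (hKey : StmtKey) (hE : LIN.StmtESA) (hH1 : LIN.StmtH1) : StmtQ1 :=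
  q1_of_blocks hSC MM.stmtMM_of_sc B294.stmtStein B294.stmtIBP B294.stmtDiv hKey
    (LIN.stmtLin_of_two hE hH1) stmtLocal_of END.stmtQ1_of_stmtLocal

end Vale.Agent.P227.M.Top
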