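import Vale.Agent.P227.M.Top.Most
import Vale.Agent.P227.M.ID.XKey
import Vale.Agent.P227.M.SC2.MargN
import Vale.Agent.P227.M.SC.HeatOfStep
import Vale.Agent.P227.M.SC.Step
import Vale.Agent.P227.M.LIN.ESA

/-! # P227/M: the chain with everything that is landed (21:03) -/

namespace Vale.Agent.P227.M.Top

theorem stmtSC : StmtSC := HL.stmtSC_of_heat (SC.stmtHeat_of_step fun _ => SC.step)

/-- log-Brunn-Minkowski from the open leaf -/
theorem q1_of_h1 (hH1 : LIN.StmtH1) : StmtQ1 :=
  q1_of_four stmtSC X.stmtKey LIN.E456.stmtESA hH1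

end Vale.Agent.P227.M.Top
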