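import Vale.Agent.P227.M.Top.Two592
import Vale.Agent.P227.M.LIN.Esa255

/-! # P227/M/Top: `StmtQ1` from the one open input `StmtH1` of block LIN (helper592). -/

namespace Vale.Agent.P227.M.One592

open Vale.Agent.P227.M

theorem stmtLin_of_H1 (hH1 : LIN.StmtH1) : StmtLin := LIN.stmtLin_of_two Esa255.stmtESA hH1

theorem stmtQ1_of_H1 (hH1 : LIN.StmtH1) : StmtQ1 := Two592.stmtQ1_of_two Esa255.stmtESA hH1

end Vale.Agent.P227.M.One592
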