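import Vale.Agent.P227.M.Mom.Main
import Vale.Agent.P227.M.Loc.Main
import Vale.Agent.P227.M.END.ToQ1
import Vale.Agent.P227.M.ID.Stein294
import Vale.Agent.P227.M.ID.Div294
import Vale.Agent.P227.M.LIN.TopG
import Vale.Agent.P227.M.LIN.Boch
import Vale.Agent.P227.M.LIN.AffStmt
import Vale.Agent.P227.M.LIN.Hilb119
import Vale.Agent.P227.M.SC2.MargN

/-! # P227/M: Q1 from the leaves that are still open -/

namespace Vale.Agent.P227.M.Top874

open Vale.Agent.P227.M

/-- everything but `StmtHeat`, `StmtKey`, `StmtESA`, `StmtH1` -/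
theorem q1_of (hHeat : StmtHeat) (hKey : StmtKey) (hE : LIN.StmtESA) (hH : LIN.StmtH1) : StmtQ1 :=
  q1_of_blocks (HL.stmtSC_of_heat hHeat) Mom.stmtMM_of_sc B294.stmtStein B294.stmtIBP B294.stmtDiv hKey
    (LIN.T592.stmtLin_of B294.stmtIBP hE LIN.stmtBoch LIN.stmtConst LIN.stmtAff hH LIN.stmtHilb119)
    stmtLocal_of END.stmtQ1_of_stmtLocal

end Vale.Agent.P227.M.Top874
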