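import Vale.Agent.P227.M.Top.One592
import Vale.Agent.P227.M.LIN.H1Top
import Vale.Agent.P227.M.LIN.H1Pt

/-! # P227/M/Top: `StmtQ1`, no hypothesis left (helper592). -/

namespace Vale.Agent.P227.M.Q592

open Vale.Agent.P227.M

theorem stmtH1 : LIN.StmtH1 := LIN.H1T.stmtH1_of fun n ψ V c C M hM => by
  obtain ⟨T1, h0, h⟩ := LIN.pt_bound hM
  exact ⟨T1, h0, fun R hR => h R (by linarith)⟩

theorem stmtLin : StmtLin := One592.stmtLin_of_H1 stmtH1

theorem stmtQ1 : StmtQ1 := One592.stmtQ1_of_H1 stmtH1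

end Vale.Agent.P227.M.Q592
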