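import Vale.Agent.P227.M.LIN.Most
import Vale.Agent.P227.M.ID.KeyLim
import Vale.Agent.P227.M.ID.SInst4
import Vale.Agent.P227.M.Loc.Main
import Vale.Agent.P227.M.END.ToQ1
import Vale.Agent.P227.M.MM.Top290
import Vale.Agent.P227.M.ID.Div294
import Vale.Agent.P227.M.ID.Stein294
import Vale.Agent.P227.Full.Bridge
import Vale.Agent.P227.M.Top.Chain

namespace Vale.Agent.P227.M.Three592

open Vale.Agent.P227.M

theorem stmtQ1_of_three (hSC : StmtSC) (hE : LIN.StmtESA) (hH1 : LIN.StmtH1) : StmtQ1 :=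
  q1_of_blocks hSC MM.stmtMM_of_SC B294.stmtStein B294.stmtIBP B294.stmtDiv
    (stmtKey_of_keySm keySm) (LIN.stmtLin_of_two hE hH1) stmtLocal_of END.stmtQ1_of_stmtLocal

end Vale.Agent.P227.M.Three592
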