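import Vale.Agent.P227.M.Top.Three592
import Vale.Agent.P227.M.SC2.IterC
import Vale.Agent.P227.M.SC2.MargN

/-! # P227/M/Top: `StmtSC` is proved; `StmtQ1` from the two open inputs of block LIN (helper592). -/

namespace Vale.Agent.P227.M.Two592

open Vale.Agent.P227.M

theorem stmtSC : StmtSC := HL.stmtSC_of_heat SC2.stmtHeat

theorem stmtMM : StmtMM := MM.stmtMM_of_SC stmtSC

theorem stmtQ1_of_two (hE : LIN.StmtESA) (hH1 : LIN.StmtH1) : StmtQ1 :=
  Three592.stmtQ1_of_three stmtSC hE hH1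

end Vale.Agent.P227.M.Two592
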